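import Crest.Agent.R216.ParamInt

/-!
Row 250, orientation leaf, part 1 (helper96): division by a regular function (Hadamard).
`SmN f p` : `f` is `C^∞` near `p`.  `divide` : a smooth `ψ` vanishing on the zero set of a regular
`φ` is `φ • g` with `g` smooth.  `ratio` : two regular functions with the same zero set differ by
a smooth nowhere vanishing factor.
-/

set_option autoImplicit false

open Set Filter Topology
open scoped ContDiff

namespace Crest.Agent.N250.Or

variable {V : Type*} [NormedAddCommGroup V] [NormedSpace ℝ V]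
  {F : Type*} [NormedAddCommGroup F] [NormedSpace ℝ F]
  {G : Type*} [NormedAddCommGroup G] [NormedSpace ℝ G]

/-- `f` is smooth near `p`. -/
def SmN (f : V → F) (p : V) : Prop := ∀ᶠ y in 𝓝 p, ContDiffAt ℝ ∞ f y

theorem SmN.at {f : V → F} {p : V} (h : SmN f p) : ContDiffAt ℝ ∞ f p := h.self_of_nhds

theorem SmN.eventually {f : V → F} {p : V} (h : SmN f p) : ∀ᶠ y in 𝓝 p, SmN f y :=
  h.eventually_nhds

theorem SmN.of_on {f : V → F} {W : Set V} (hW : IsOpen W) (h : ContDiffOn ℝ ∞ f W) {p : V}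
    (hp : p ∈ W) : SmN f p := by
  filter_upwards [hW.mem_nhds hp] with y hy using h.contDiffAt (hW.mem_nhds hy)

theorem SmN.of_contDiff {f : V → F} (h : ContDiff ℝ ∞ f) (p : V) : SmN f p :=
  Eventually.of_forall fun _ => h.contDiffAt

theorem SmN.congr {f g : V → F} {p : V} (h : SmN f p) (e : g =ᶠ[𝓝 p] f) : SmN g p := by
  filter_upwards [h, e.eventually_nhds] with y h1 h2 using h1.congr_of_eventuallyEq h2

theorem SmN.comp {f : F → G} {g : V → F} {p : V} (hf : SmN f (g p)) (hg : SmN g p) :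
    SmN (fun x => f (g x)) p := by
  filter_upwards [hg, hg.at.continuousAt.eventually hf] with y h1 h2 using h2.comp y h1

theorem SmN.diff {f : V → F} {p : V} (h : SmN f p) : DifferentiableAt ℝ f p :=
  h.at.differentiableAt (by simp)

theorem SmN.exists_on {f : V → F} {p : V} (h : SmN f p) :
    ∃ W, IsOpen W ∧ p ∈ W ∧ ContDiffOn ℝ ∞ f W := by
  obtain ⟨W, h1, h2, h3⟩ := eventually_nhds_iff.1 h
  exact ⟨W, h2, h3, fun y hy => (h1 y hy).contDiffWithinAt⟩

theorem SmN.exists_global [FiniteDimensional ℝ V] {f : V → F} {p : V} (h : SmN f p) :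
    ∃ g : V → F, ContDiff ℝ ∞ g ∧ g =ᶠ[𝓝 p] f := by
  obtain ⟨W, hW, hp, hf⟩ := h.exists_on
  obtain ⟨r, hr, hrW⟩ := Metric.nhds_basis_closedBall.mem_iff.1 (hW.mem_nhds hp)
  let b : ContDiffBump p := ⟨r / 2, r, by positivity, by linarith⟩
  refine ⟨fun y => b y • f y, ?_, ?_⟩
  · rw [contDiff_iff_contDiffAt]
    intro y
    by_cases hy : y ∈ W
    · exact b.contDiff.contDiffAt.smul (hf.contDiffAt (hW.mem_nhds hy))
    · have h1 : y ∉ tsupport b := by
        rw [b.tsupport_eq]; exact fun h2 => hy (hrW h2)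
      have h2 : (fun y => b y • f y) =ᶠ[𝓝 y] fun _ => 0 := by
        filter_upwards [notMem_tsupport_iff_eventuallyEq.1 h1] with z hz
        simp [hz]
      exact contDiffAt_const.congr_of_eventuallyEq h2
  · filter_upwards [b.eventuallyEq_one] with y hy
    simp [hy]

theorem hadamard_lin [CompleteSpace F] {χ : V → F} (hχ : ContDiff ℝ ∞ χ) (l : V →L[ℝ] ℝ)
    (v p : V) : ∃ g : V → F, ContDiff ℝ ∞ g ∧
      ∀ y, χ y = χ (y - l (y - p) • v) + l (y - p) • g y := by
  have hd : ContDiff ℝ ∞ (fderiv ℝ χ) := hχ.fderiv_right (by simp)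
  refine ⟨fun y => ∫ s in (0:ℝ)..1, fderiv ℝ χ (y - l (y - p) • v + s • (l (y - p) • v)) v, ?_,
    fun y => ?_⟩
  · refine Crest.Agent.R216.contDiff_param_integral (n := ⊤) 0 1 ?_
    have h1 : ContDiff ℝ ∞ fun q : V × ℝ =>
        q.1 - l (q.1 - p) • v + q.2 • (l (q.1 - p) • v) := by fun_prop
    exact (hd.comp h1).clm_apply contDiff_const
  · set c := l (y - p)
    have h1 : ∀ s : ℝ, HasDerivAt (fun s : ℝ => χ (y - c • v + s • (c • v)))
        (c • fderiv ℝ χ (y - c • v + s • (c • v)) v) s := by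
      intro s
      have h2 : HasDerivAt (fun s : ℝ => y - c • v + s • (c • v)) (c • v) s := by
        simpa using ((hasDerivAt_id s).smul_const (c • v)).const_add (y - c • v)
      have h3 := (hχ.differentiable (by simp) _).hasFDerivAt.comp_hasDerivAt s h2
      rw [map_smul] at h3
      exact h3
    have h4 : Continuous fun s : ℝ => c • fderiv ℝ χ (y - c • v + s • (c • v)) v := by
      have := hd.continuous
      fun_prop
    have h5 := intervalIntegral.integral_eq_sub_of_hasDerivAt (a := 0) (b := 1)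
      (fun s _ => h1 s) (h4.intervalIntegrable 0 1)
    rw [intervalIntegral.integral_smul] at h5
    simp only [one_smul, zero_smul, add_zero, sub_add_cancel] at h5
    rw [h5]; abel

/-- Straightening a regular function. -/
theorem straighten [CompleteSpace V] {φ : V → ℝ} {p : V} (hφ : SmN φ p) (h0 : φ p = 0) {v : V}
    (hv : fderiv ℝ φ p v = 1) :
    ∃ Θ Ψ : V → V, SmN Θ p ∧ SmN Ψ p ∧ Θ p = p ∧ Ψ p = p ∧ (∀ᶠ x in 𝓝 p, Ψ (Θ x) = x) ∧
      (∀ᶠ y in 𝓝 p, Θ (Ψ y) = y) ∧ (∀ x, fderiv ℝ φ p (Θ x - p) = φ x) ∧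
      HasFDerivAt Ψ (ContinuousLinearMap.id ℝ V) p := by
  set l := fderiv ℝ φ p with hl
  set Θ : V → V := fun x => x - l (x - p) • v + φ x • v with hΘ
  have hΘs : SmN Θ p := by
    filter_upwards [hφ] with y hy
    have h1 : ContDiff ℝ ∞ fun x : V => x - l (x - p) • v := by fun_prop
    exact h1.contDiffAt.add (hy.smul contDiffAt_const)
  have hΘp : Θ p = p := by simp [hΘ, h0]
  have hd : HasFDerivAt Θ (ContinuousLinearEquiv.refl ℝ V : V →L[ℝ] V) p := by
    have h1 : HasFDerivAt (fun x : V => l (x - p)) l p := by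
      have := l.hasFDerivAt.comp p ((hasFDerivAt_id p).sub_const p)
      rw [ContinuousLinearMap.comp_id] at this
      exact this
    have h2 := ((hasFDerivAt_id p).sub (h1.smul_const v)).add (hφ.diff.hasFDerivAt.smul_const v)
    refine h2.congr_fderiv ?_
    ext w
    simp [hl]
  have hn : (∞ : WithTop ℕ∞) ≠ 0 := by simp
  set Φ := hΘs.at.toOpenPartialHomeomorph Θ hd hn
  have hs : p ∈ Φ.source := hΘs.at.mem_toOpenPartialHomeomorph_source hd hn
  have hΦp : Φ p = p := hΘp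
  have hΨp : Φ.symm p = p := by
    conv_lhs => rw [← hΦp]
    exact Φ.left_inv hs
  have hu : ∀ᶠ w in 𝓝 p, IsUnit (fderiv ℝ Θ w) :=
    (hΘs.at.continuousAt_fderiv (by simp)).eventually (Units.isOpen.mem_nhds (by
      change IsUnit _; rw [hd.fderiv]; exact isUnit_one))
  have ht := Φ.tendsto_symm hs
  have hΨs : SmN Φ.symm p := by
    have h1 : ∀ᶠ a in 𝓝 (Φ p), ContDiffAt ℝ ∞ Φ.symm a := by
      filter_upwards [ht.eventually hu, ht.eventually hΘs,
        Φ.open_target.mem_nhds (Φ.map_source hs)] with a ⟨u, hu⟩ h4 h3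
      refine Φ.contDiffAt_symm (f₀' := ContinuousLinearEquiv.ofUnit u) h3 ?_ h4
      have h5 : (ContinuousLinearEquiv.ofUnit u : V →L[ℝ] V) = fderiv ℝ Θ (Φ.symm a) := by
        rw [← hu]; rfl
      rw [h5]
      exact (h4.differentiableAt hn).hasFDerivAt
    rwa [hΦp] at h1
  have hr : ∀ᶠ y in 𝓝 p, Θ (Φ.symm y) = y := by
    have := Φ.eventually_right_inverse' hs
    rwa [hΦp] at this
  refine ⟨Θ, Φ.symm, hΘs, hΨs, hΘp, hΨp, Φ.eventually_left_inverse hs, hr, fun x => ?_, ?_⟩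
  · have : Θ x - p = (x - p) - l (x - p) • v + φ x • v := by simp only [hΘ]; abel
    rw [this]
    simp only [map_add, map_sub, map_smul, hv, smul_eq_mul, mul_one]
    ring
  · have h1 := hΨs.diff.hasFDerivAt
    have h2 : HasFDerivAt Θ (ContinuousLinearEquiv.refl ℝ V : V →L[ℝ] V) (Φ.symm p) := by
      rw [hΨp]; exact hd
    have h3 := h2.comp p h1
    have h4 : HasFDerivAt (Θ ∘ Φ.symm) (ContinuousLinearMap.id ℝ V) p :=
      (hasFDerivAt_id p).congr_of_eventuallyEq hr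
    have h5 := h3.unique h4
    refine h1.congr_fderiv ?_
    rw [← h5]; ext w; simp

theorem exists_dir {l : V →L[ℝ] ℝ} (hl : l ≠ 0) : ∃ v, l v = 1 := by
  obtain ⟨w, hw⟩ : ∃ w, l w ≠ 0 := by
    by_contra h
    push Not at h
    exact hl (ContinuousLinearMap.ext h)
  exact ⟨(l w)⁻¹ • w, by simp [hw]⟩

/-- Division by a regular function. -/
theorem divide [FiniteDimensional ℝ V] [CompleteSpace F] {φ : V → ℝ} {ψ : V → F} {p : V}
    (hφ : SmN φ p) (hψ : SmN ψ p) (h0 : φ p = 0) (hd : fderiv ℝ φ p ≠ 0)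
    (hz : ∀ᶠ x in 𝓝 p, φ x = 0 → ψ x = 0) :
    ∃ g : V → F, SmN g p ∧ ∀ᶠ x in 𝓝 p, ψ x = φ x • g x := by
  have : CompleteSpace V := FiniteDimensional.complete ℝ V
  obtain ⟨v, hv⟩ := exists_dir hd
  obtain ⟨Θ, Ψ, hΘ, hΨ, hΘp, hΨp, h1, h2, h3, -⟩ := straighten hφ h0 hv
  set l := fderiv ℝ φ p
  have hc : SmN (fun y => ψ (Ψ y)) p := SmN.comp (by rwa [hΨp]) hΨ
  obtain ⟨χ, hχ, hχe⟩ := hc.exists_global
  obtain ⟨g, hg, hge⟩ := hadamard_lin hχ l v p
  have hΨt : Tendsto Ψ (𝓝 p) (𝓝 p) := by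
    have := hΨ.at.continuousAt.tendsto
    rwa [hΨp] at this
  have hΘt : Tendsto Θ (𝓝 p) (𝓝 p) := by
    have := hΘ.at.continuousAt.tendsto
    rwa [hΘp] at this
  have hπ : Tendsto (fun y => y - l (y - p) • v) (𝓝 p) (𝓝 p) := by
    have : Continuous fun y => y - l (y - p) • v := by fun_prop
    simpa using this.tendsto p
  have h4 : ∀ᶠ y in 𝓝 p, χ (y - l (y - p) • v) = 0 := by
    filter_upwards [hπ.eventually hχe, hπ.eventually h2, hπ.eventually (hΨt.eventually hz)]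
      with y e1 e2 e3
    rw [e1]
    apply e3
    rw [← h3, e2]
    have : y - l (y - p) • v - p = (y - p) - l (y - p) • v := by abel
    rw [this, map_sub, map_smul, hv]
    simp
  refine ⟨fun x => g (Θ x), (SmN.of_contDiff hg _).comp hΘ, ?_⟩
  filter_upwards [h1, hΘt.eventually hχe, hΘt.eventually h4] with x e1 e2 e3
  have e4 := hge (Θ x)
  rw [e3, zero_add, h3, e2] at e4
  simp only [e1] at e4
  exact e4

/-- Every vector in the kernel of the differential is tangent to a curve in the zero set. -/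
theorem exists_curve [FiniteDimensional ℝ V] {φ : V → ℝ} {p : V} (hφ : SmN φ p) (h0 : φ p = 0)
    (hd : fderiv ℝ φ p ≠ 0) {w : V} (hw : fderiv ℝ φ p w = 0) :
    ∃ γ : ℝ → V, γ 0 = p ∧ HasDerivAt γ w 0 ∧ ∀ᶠ s in 𝓝 (0:ℝ), φ (γ s) = 0 := by
  have : CompleteSpace V := FiniteDimensional.complete ℝ V
  obtain ⟨v, hv⟩ := exists_dir hd
  obtain ⟨Θ, Ψ, -, hΨ, -, hΨp, -, h2, h3, h4⟩ := straighten hφ h0 hv
  have hl : HasDerivAt (fun s : ℝ => p + s • w) w 0 := by
    simpa using ((hasDerivAt_id (0:ℝ)).smul_const w).const_add p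
  have hlt : Tendsto (fun s : ℝ => p + s • w) (𝓝 0) (𝓝 p) := by
    simpa using hl.continuousAt.tendsto
  have h5 : HasFDerivAt Ψ (ContinuousLinearMap.id ℝ V) (p + (0:ℝ) • w) := by simpa using h4
  have h6 := HasFDerivAt.comp_hasDerivAt (f := fun s : ℝ => p + s • w) 0 h5 hl
  refine ⟨fun s => Ψ (p + s • w), by simp [hΨp], h6, ?_⟩
  filter_upwards [hlt.eventually h2] with s e1
  rw [← h3, e1]
  simp [hw]



/-- Two regular functions with the same zero set differ by a smooth nowhere vanishing factor. -/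
theorem ratio [FiniteDimensional ℝ V] {φ ψ : V → ℝ} {p : V} (hφ : SmN φ p) (hψ : SmN ψ p)
    (hd : φ p = 0 → fderiv ℝ φ p ≠ 0) (hd' : ψ p = 0 → fderiv ℝ ψ p ≠ 0)
    (hz : ∀ᶠ x in 𝓝 p, φ x = 0 ↔ ψ x = 0) :
    ∃ g : V → ℝ, SmN g p ∧ g p ≠ 0 ∧ ∀ᶠ x in 𝓝 p, ψ x = g x * φ x := by
  by_cases h0 : φ p = 0
  · obtain ⟨g, hg, he⟩ := divide hφ hψ h0 (hd h0) (hz.mono fun x hx => hx.1)
    refine ⟨g, hg, fun hg0 => hd' (hz.self_of_nhds.1 h0) ?_,
      he.mono fun x hx => by rw [hx, smul_eq_mul, mul_comm]⟩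
    have h1 := hφ.diff.hasFDerivAt.mul hg.diff.hasFDerivAt
    have h2 : HasFDerivAt ψ _ p := h1.congr_of_eventuallyEq he
    rw [h2.fderiv, h0, hg0]
    simp
  · have h1 : ∀ᶠ x in 𝓝 p, φ x ≠ 0 := hφ.at.continuousAt.eventually_ne h0
    refine ⟨fun x => ψ x / φ x, ?_, div_ne_zero (fun h => h0 (hz.self_of_nhds.2 h)) h0, ?_⟩
    · filter_upwards [hφ, hψ, h1] with y e1 e2 e3 using e2.div e1 e3
    · filter_upwards [h1] with x hx
      field_simp

/-- A regular function does not vanish identically near a point. -/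
theorem frequently_ne {φ : V → ℝ} {p : V} (hd : φ p = 0 → fderiv ℝ φ p ≠ 0) :
    ∃ᶠ x in 𝓝 p, φ x ≠ 0 := by
  rw [Filter.Frequently]
  intro h
  have h1 : φ =ᶠ[𝓝 p] fun _ => 0 := h.mono fun x hx => by simpa using hx
  exact hd h1.self_of_nhds (by rw [h1.fderiv_eq]; simp)

end Crest.Agent.N250.Or
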